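import Mathlib

/-!
# P181: the dimension inequality `dim Sym^a(Sym^b V) ≤ dim Sym^b(Sym^a V)` for `a ≤ b`

With `N k = C(k + e, k)` (the number of monomials of degree `k` in `e + 1` variables) the
statement is `C(N b + a - 1, a) ≤ C(N a + b - 1, b)` for `a ≤ b`.  The proof follows helper49's
report: a Turán-type inequality `(T)` for `N`, monotonicity of
`ψ k = (N k - k - 1) / (k N k)`, the cross inequality `(**)`, and two inductions.
-/

namespace Vale.Agent.Lib.P181.H52

/-- `N e k = C(k + e, k)`: the number of monomials of degree `k` in `e + 1` variables. -/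
def N (e k : ℕ) : ℕ := (k + e).choose k

theorem N_def (e k : ℕ) : N e k = (k + e).choose k := rfl

theorem N_pos (e k : ℕ) : 0 < N e k := Nat.choose_pos (Nat.le_add_right k e)

/-- `(k + 1) N (k + 1) = (k + e + 1) N k`. -/
theorem N_succ (e k : ℕ) : (k + 1) * N e (k + 1) = (k + e + 1) * N e k := by
  rw [N_def, N_def]
  have h := Nat.add_one_mul_choose_eq (k + e) k
  have e1 : k + 1 + e = k + e + 1 := by omega
  rw [e1, h, mul_comm]

/-- `(e + 1) N (e + 1) k = (k + e + 1) N e k`. -/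
theorem N_succ_left (e k : ℕ) : (e + 1) * N (e + 1) k = (k + e + 1) * N e k := by
  rw [N_def, N_def]
  have h := Nat.add_one_mul_choose_eq (k + e) e
  have s1 : (k + (e + 1)).choose k = (k + (e + 1)).choose (e + 1) := Nat.choose_symm_add
  have s2 : (k + e).choose k = (k + e).choose e := Nat.choose_symm_add
  have e1 : k + (e + 1) = k + e + 1 := by omega
  rw [s1, s2, e1, h, mul_comm]

theorem N_zero_left (k : ℕ) : N 0 k = 1 := by
  rw [N_def, Nat.add_zero, Nat.choose_self]

theorem N_one_right (e : ℕ) : N e 1 = e + 1 := by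
  rw [N_def, Nat.choose_one_right, Nat.add_comm]

/-- The inequality `(T)`: `(k + 1) (k e + e + 1) ≤ (k + e + 1) N k`. -/
theorem T (e k : ℕ) : (k + 1) * (k * e + e + 1) ≤ (k + e + 1) * N e k := by
  induction e with
  | zero =>
    rw [N_zero_left]
    simp
  | succ e ih =>
    refine Nat.le_of_mul_le_mul_left ?_ (Nat.succ_pos e)
    have h := N_succ_left e k
    have p : (k + e + 2) * (k * e + e + 1) =
        (e + 1) * (k * (e + 1) + (e + 1) + 1) + (k * k * e + k * e) := by ring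
    calc (e + 1) * ((k + 1) * (k * (e + 1) + (e + 1) + 1))
        = (k + 1) * ((e + 1) * (k * (e + 1) + (e + 1) + 1)) := by ring
      _ ≤ (k + 1) * ((k + e + 2) * (k * e + e + 1)) := by
          apply Nat.mul_le_mul_left
          rw [p]
          exact Nat.le_add_right _ _
      _ = (k + e + 2) * ((k + 1) * (k * e + e + 1)) := by ring
      _ ≤ (k + e + 2) * ((k + e + 1) * N e k) := Nat.mul_le_mul_left _ ih
      _ = (k + e + 2) * ((e + 1) * N (e + 1) k) := by rw [h]
      _ = (e + 1) * ((k + (e + 1) + 1) * N (e + 1) k) := by ring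

/-- `ψ k = (N k - k - 1) / (k N k)`. -/
noncomputable def psi (e k : ℕ) : ℚ := ((N e k : ℚ) - k - 1) / (k * N e k)

theorem psi_def (e k : ℕ) : psi e k = ((N e k : ℚ) - k - 1) / (k * N e k) := rfl

theorem N_cast_pos (e k : ℕ) : (0 : ℚ) < (N e k : ℚ) := by
  exact_mod_cast N_pos e k

theorem psi_succ_le (e k : ℕ) (hk : 1 ≤ k) : psi e (k + 1) ≤ psi e k := by
  have hk0 : (0 : ℚ) < (k : ℚ) := by exact_mod_cast hk
  have hn : (0 : ℚ) < (N e k : ℚ) := N_cast_pos e k
  have hn' : (0 : ℚ) < (N e (k + 1) : ℚ) := N_cast_pos e (k + 1)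
  have h : ((k : ℚ) + 1) * (N e (k + 1) : ℚ) = ((k : ℚ) + e + 1) * (N e k : ℚ) := by
    exact_mod_cast N_succ e k
  have hT : ((k : ℚ) + 1) * ((k : ℚ) * e + e + 1) ≤ ((k : ℚ) + e + 1) * (N e k : ℚ) := by
    exact_mod_cast T e k
  rw [psi_def, psi_def, div_le_div_iff₀ (by positivity) (by positivity)]
  push_cast
  have key : ((k : ℚ) + 1) *
      (((N e k : ℚ) - k - 1) * (((k : ℚ) + 1) * (N e (k + 1) : ℚ)) -
        ((N e (k + 1) : ℚ) - ((k : ℚ) + 1) - 1) * ((k : ℚ) * (N e k : ℚ))) =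
      (N e k : ℚ) * (((k : ℚ) + e + 1) * (N e k : ℚ) - ((k : ℚ) + 1) * ((k : ℚ) * e + e + 1)) := by
    linear_combination ((((k : ℚ) + 1) * ((N e k : ℚ) - k - 1)) - (k : ℚ) * (N e k : ℚ)) * h
  have hnn : 0 ≤ (N e k : ℚ) *
      (((k : ℚ) + e + 1) * (N e k : ℚ) - ((k : ℚ) + 1) * ((k : ℚ) * e + e + 1)) :=
    mul_nonneg hn.le (sub_nonneg.2 hT)
  have hpos : (0 : ℚ) < (k : ℚ) + 1 := by positivity
  have hD : 0 ≤ ((N e k : ℚ) - k - 1) * (((k : ℚ) + 1) * (N e (k + 1) : ℚ)) -
      ((N e (k + 1) : ℚ) - ((k : ℚ) + 1) - 1) * ((k : ℚ) * (N e k : ℚ)) := by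
    rw [← key] at hnn
    exact nonneg_of_mul_nonneg_right hnn hpos
  linarith

theorem psi_anti (e a b : ℕ) (ha : 1 ≤ a) (hab : a ≤ b) : psi e b ≤ psi e a := by
  induction b, hab using Nat.le_induction with
  | base => exact le_refl _
  | succ b hab ih => exact (psi_succ_le e b (le_trans ha hab)).trans ih

/-- The cleared form of `ψ b ≤ ψ a`. -/
theorem psi_cross (e a b : ℕ) (ha : 1 ≤ a) (hab : a ≤ b) :
    ((N e b : ℚ) - b - 1) * ((a : ℚ) * (N e a : ℚ)) ≤
      ((N e a : ℚ) - a - 1) * ((b : ℚ) * (N e b : ℚ)) := by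
  have ha0 : (0 : ℚ) < (a : ℚ) := by exact_mod_cast ha
  have hb0 : (0 : ℚ) < (b : ℚ) := by exact_mod_cast le_trans ha hab
  have hA : (0 : ℚ) < (N e a : ℚ) := N_cast_pos e a
  have hB : (0 : ℚ) < (N e b : ℚ) := N_cast_pos e b
  have h := psi_anti e a b ha hab
  rw [psi_def, psi_def, div_le_div_iff₀ (by positivity) (by positivity)] at h
  exact h

/-- The cross inequality `(**)`. -/
theorem star (e a b : ℕ) (ha : 1 ≤ a) (hab : a ≤ b) :
    ((N e (b + 1) : ℚ) + a) * ((N e a : ℚ) + b) ≤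
      ((N e (a + 1) : ℚ) + b) * ((N e b : ℚ) + a) := by
  have hsa : ((a : ℚ) + 1) * (N e (a + 1) : ℚ) = ((a : ℚ) + e + 1) * (N e a : ℚ) := by
    exact_mod_cast N_succ e a
  have hsb : ((b : ℚ) + 1) * (N e (b + 1) : ℚ) = ((b : ℚ) + e + 1) * (N e b : ℚ) := by
    exact_mod_cast N_succ e b
  have hc := psi_cross e a b ha hab
  have key : ((a : ℚ) + 1) * ((b : ℚ) + 1) *
      (((N e (a + 1) : ℚ) + b) * ((N e b : ℚ) + a) -
        ((N e (b + 1) : ℚ) + a) * ((N e a : ℚ) + b)) =
      (e : ℚ) * (((N e a : ℚ) - a - 1) * ((b : ℚ) * (N e b : ℚ)) -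
        ((N e b : ℚ) - b - 1) * ((a : ℚ) * (N e a : ℚ))) := by
    linear_combination ((b : ℚ) + 1) * ((N e b : ℚ) + a) * hsa -
      ((a : ℚ) + 1) * ((N e a : ℚ) + b) * hsb
  have he : (0 : ℚ) ≤ (e : ℚ) := Nat.cast_nonneg e
  have hnn : 0 ≤ (e : ℚ) * (((N e a : ℚ) - a - 1) * ((b : ℚ) * (N e b : ℚ)) -
      ((N e b : ℚ) - b - 1) * ((a : ℚ) * (N e a : ℚ))) := mul_nonneg he (sub_nonneg.2 hc)
  have hpos : (0 : ℚ) < ((a : ℚ) + 1) * ((b : ℚ) + 1) := by positivity
  have hD : 0 ≤ ((N e (a + 1) : ℚ) + b) * ((N e b : ℚ) + a) -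
      ((N e (b + 1) : ℚ) + a) * ((N e a : ℚ) + b) := by
    rw [← key] at hnn
    exact nonneg_of_mul_nonneg_right hnn hpos
  linarith

/-- `(k + 1) multichoose n (k + 1) = (n + k) multichoose n k`. -/
theorem multichoose_succ_mul (n k : ℕ) :
    (k + 1) * Nat.multichoose n (k + 1) = (n + k) * Nat.multichoose n k := by
  cases n with
  | zero =>
    rw [Nat.multichoose_zero_succ, Nat.mul_zero]
    cases k with
    | zero => simp
    | succ k => rw [Nat.multichoose_zero_succ, Nat.mul_zero]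
  | succ m =>
    rw [Nat.multichoose_eq, Nat.multichoose_eq]
    have h := Nat.add_one_mul_choose_eq (m + k) k
    have e1 : m + 1 + (k + 1) - 1 = m + k + 1 := by omega
    have e2 : m + 1 + k - 1 = m + k := by omega
    have e3 : m + 1 + k = m + k + 1 := by omega
    rw [e1, e2, e3, h, mul_comm]

/-- The inequality `(K)`. -/
theorem K (e b : ℕ) (a : ℕ) (ha : 1 ≤ a) :
    a ≤ b → ((b : ℚ) + 1) * (Nat.multichoose (N e (b + 1)) a : ℚ) ≤
      ((N e a : ℚ) + b) * (Nat.multichoose (N e b) a : ℚ) := by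
  induction a, ha using Nat.le_induction with
  | base =>
    intro _
    rw [Nat.multichoose_one_right, Nat.multichoose_one_right, N_one_right]
    have h : ((b : ℚ) + 1) * (N e (b + 1) : ℚ) = ((b : ℚ) + e + 1) * (N e b : ℚ) := by
      exact_mod_cast N_succ e b
    push_cast
    rw [h]
    apply le_of_eq
    ring
  | succ a ha ih =>
    intro hab
    have ih' := ih (Nat.le_of_succ_le hab)
    have hst := star e a b ha (Nat.le_of_succ_le hab)
    have m1 : ((a : ℚ) + 1) * (Nat.multichoose (N e (b + 1)) (a + 1) : ℚ) =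
        ((N e (b + 1) : ℚ) + a) * (Nat.multichoose (N e (b + 1)) a : ℚ) := by
      exact_mod_cast multichoose_succ_mul (N e (b + 1)) a
    have m2 : ((a : ℚ) + 1) * (Nat.multichoose (N e b) (a + 1) : ℚ) =
        ((N e b : ℚ) + a) * (Nat.multichoose (N e b) a : ℚ) := by
      exact_mod_cast multichoose_succ_mul (N e b) a
    have hX : (0 : ℚ) ≤ (Nat.multichoose (N e b) a : ℚ) := Nat.cast_nonneg _
    have hN : (0 : ℚ) ≤ (N e (b + 1) : ℚ) + a := by positivity
    have hpos : (0 : ℚ) < (a : ℚ) + 1 := by positivity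
    have step1 : ((N e (b + 1) : ℚ) + a) * (((b : ℚ) + 1) * (Nat.multichoose (N e (b + 1)) a : ℚ)) ≤
        ((N e (b + 1) : ℚ) + a) * (((N e a : ℚ) + b) * (Nat.multichoose (N e b) a : ℚ)) :=
      mul_le_mul_of_nonneg_left ih' hN
    have step2 : ((N e (b + 1) : ℚ) + a) * ((N e a : ℚ) + b) * (Nat.multichoose (N e b) a : ℚ) ≤
        ((N e (a + 1) : ℚ) + b) * ((N e b : ℚ) + a) * (Nat.multichoose (N e b) a : ℚ) :=
      mul_le_mul_of_nonneg_right hst hX
    have goal' : ((a : ℚ) + 1) * (((b : ℚ) + 1) * (Nat.multichoose (N e (b + 1)) (a + 1) : ℚ)) ≤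
        ((a : ℚ) + 1) * (((N e (a + 1) : ℚ) + b) * (Nat.multichoose (N e b) (a + 1) : ℚ)) := by
      calc ((a : ℚ) + 1) * (((b : ℚ) + 1) * (Nat.multichoose (N e (b + 1)) (a + 1) : ℚ))
          = ((b : ℚ) + 1) * (((a : ℚ) + 1) * (Nat.multichoose (N e (b + 1)) (a + 1) : ℚ)) := by
            ring
        _ = ((N e (b + 1) : ℚ) + a) *
              (((b : ℚ) + 1) * (Nat.multichoose (N e (b + 1)) a : ℚ)) := by rw [m1]; ring
        _ ≤ ((N e (b + 1) : ℚ) + a) *
              (((N e a : ℚ) + b) * (Nat.multichoose (N e b) a : ℚ)) := step1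
        _ = ((N e (b + 1) : ℚ) + a) * ((N e a : ℚ) + b) *
              (Nat.multichoose (N e b) a : ℚ) := by ring
        _ ≤ ((N e (a + 1) : ℚ) + b) * ((N e b : ℚ) + a) *
              (Nat.multichoose (N e b) a : ℚ) := step2
        _ = ((N e (a + 1) : ℚ) + b) *
              (((N e b : ℚ) + a) * (Nat.multichoose (N e b) a : ℚ)) := by ring
        _ = ((N e (a + 1) : ℚ) + b) *
              (((a : ℚ) + 1) * (Nat.multichoose (N e b) (a + 1) : ℚ)) := by rw [m2]
        _ = ((a : ℚ) + 1) *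
              (((N e (a + 1) : ℚ) + b) * (Nat.multichoose (N e b) (a + 1) : ℚ)) := by ring
    exact le_of_mul_le_mul_left goal' hpos

/-- The main inequality in terms of `N`. -/
theorem main (e a b : ℕ) (ha : 1 ≤ a) (hab : a ≤ b) :
    Nat.multichoose (N e b) a ≤ Nat.multichoose (N e a) b := by
  induction b, hab using Nat.le_induction with
  | base => exact le_refl _
  | succ b hab ih =>
    have hK := K e b a ha hab
    have m : ((b : ℚ) + 1) * (Nat.multichoose (N e a) (b + 1) : ℚ) =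
        ((N e a : ℚ) + b) * (Nat.multichoose (N e a) b : ℚ) := by
      exact_mod_cast multichoose_succ_mul (N e a) b
    have ihq : (Nat.multichoose (N e b) a : ℚ) ≤ (Nat.multichoose (N e a) b : ℚ) := by
      exact_mod_cast ih
    have hN : (0 : ℚ) ≤ (N e a : ℚ) + b := by positivity
    have hpos : (0 : ℚ) < (b : ℚ) + 1 := by positivity
    have goal' : ((b : ℚ) + 1) * (Nat.multichoose (N e (b + 1)) a : ℚ) ≤
        ((b : ℚ) + 1) * (Nat.multichoose (N e a) (b + 1) : ℚ) := by
      rw [m]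
      exact hK.trans (mul_le_mul_of_nonneg_left ihq hN)
    have := le_of_mul_le_mul_left goal' hpos
    exact_mod_cast this

/-- `multichoose (e + 1) k = N e k`. -/
theorem multichoose_succ_eq_N (e k : ℕ) : Nat.multichoose (e + 1) k = N e k := by
  rw [Nat.multichoose_eq, N_def]
  have e1 : e + 1 + k - 1 = k + e := by omega
  rw [e1]

/-- The dimension inequality in binomial (multiset-counting) form. -/
theorem multichoose_ineq (d a b : ℕ) (hab : a ≤ b) :
    Nat.multichoose (Nat.multichoose d b) a ≤ Nat.multichoose (Nat.multichoose d a) b := by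
  rcases Nat.eq_zero_or_pos a with h0 | hpos
  · subst h0
    rw [Nat.multichoose_zero_right, Nat.multichoose_zero_right, Nat.multichoose_one]
  · cases d with
    | zero =>
      obtain ⟨b', rfl⟩ : ∃ b', b = b' + 1 := ⟨b - 1, by omega⟩
      obtain ⟨a', rfl⟩ : ∃ a', a = a' + 1 := ⟨a - 1, by omega⟩
      rw [Nat.multichoose_zero_succ, Nat.multichoose_zero_succ]
      exact Nat.zero_le _
    | succ e =>
      rw [multichoose_succ_eq_N, multichoose_succ_eq_N]
      exact main e a b hpos hab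

/-- `dim Sym^a(Sym^b V) ≤ dim Sym^b(Sym^a V)` for `a ≤ b`, `dim V = d`: the number of
`a`-multisets of monomials of degree `b` in `d` variables is at most the number of `b`-multisets
of monomials of degree `a`. -/
theorem dim_ineq (d a b : ℕ) (hab : a ≤ b) :
    Fintype.card (Sym (Sym (Fin d) b) a) ≤ Fintype.card (Sym (Sym (Fin d) a) b) := by
  rw [Sym.card_sym_eq_multichoose, Sym.card_sym_eq_multichoose, Sym.card_sym_eq_multichoose,
    Sym.card_sym_eq_multichoose, Fintype.card_fin]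
  exact multichoose_ineq d a b hab

end Vale.Agent.Lib.P181.H52
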